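import Mathlib

/-! # P022-CFT, [LNC]: norms in `R ⊗[K] L` for `L / K` Galois

`∏ g, act R g y = N(y)` for every commutative `K`-algebra `R`; hence the local norm condition
`LN R L α` in the form with the product over the Galois group and in the form with
`Algebra.norm` are the same. -/

open scoped TensorProduct

noncomputable section

namespace Vale.Agent.P022.H763

variable {K : Type*} (R : Type*) {L : Type*} [Field K] [CommRing R] [Algebra K R] [Field L]
  [Algebra K L]

/-- the action of `Gal(L/K)` on `R ⊗[K] L` -/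
def act (g : L ≃ₐ[K] L) : R ⊗[K] L ≃ₐ[R] R ⊗[K] L :=
  Algebra.TensorProduct.congr AlgEquiv.refl g

@[simp] lemma act_tmul (g : L ≃ₐ[K] L) (r : R) (x : L) :
    act R g (r ⊗ₜ x) = r ⊗ₜ g x := rfl

/-- the matrix `g (b h)` -/
def emb (b : Module.Basis (L ≃ₐ[K] L) K L) : Matrix (L ≃ₐ[K] L) (L ≃ₐ[K] L) L :=
  Matrix.of fun g h => g (b h)

open scoped Classical in
lemma det_emb [FiniteDimensional K L] (b : Module.Basis (L ≃ₐ[K] L) K L) :
    (emb b).det ≠ 0 := by
  intro h
  obtain ⟨v, hv, hv0⟩ := Matrix.exists_vecMul_eq_zero_iff.2 h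
  apply hv
  have h1 : ∑ g : L ≃ₐ[K] L, v g • (g.toAlgHom.toLinearMap : L →ₗ[K] L) = 0 := by
    apply b.ext
    intro i
    have := congrFun hv0 i
    rw [Matrix.vecMul, dotProduct] at this
    simpa [emb, LinearMap.sum_apply] using this
  have h2 := linearIndependent_toLinearMap K L L
  have h3 := Fintype.linearIndependent_iff.1 (h2.comp (fun g : L ≃ₐ[K] L => g.toAlgHom)
    (fun g g' hg => by ext x; exact DFunLike.congr_fun hg x)) v h1
  ext g
  exact h3 g

variable [FiniteDimensional K L] [IsGalois K L]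

theorem prod_act (y : R ⊗[K] L) :
    ∏ g : L ≃ₐ[K] L, act R g y = algebraMap R (R ⊗[K] L) (Algebra.norm R y) := by
  classical
  have hcard : Fintype.card (Fin (Module.finrank K L)) = Fintype.card (L ≃ₐ[K] L) := by
    rw [Fintype.card_fin, ← Nat.card_eq_fintype_card, IsGalois.card_aut_eq_finrank]
  let e : Fin (Module.finrank K L) ≃ (L ≃ₐ[K] L) := Fintype.equivOfCardEq hcard
  let b : Module.Basis (L ≃ₐ[K] L) K L := (Module.finBasis K L).reindex e
  let bA : Module.Basis (L ≃ₐ[K] L) R (R ⊗[K] L) := Algebra.TensorProduct.basis R b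
  have hbA : ∀ g, bA g = 1 ⊗ₜ b g := fun g => Algebra.TensorProduct.basis_apply b g
  let f : L →+* R ⊗[K] L := (Algebra.TensorProduct.includeRight : L →ₐ[K] R ⊗[K] L).toRingHom
  let T : Matrix (L ≃ₐ[K] L) (L ≃ₐ[K] L) (R ⊗[K] L) := (emb b).map f
  have hT : IsUnit T.det := by
    have h0 : T.det = f (emb b).det := (RingHom.map_det f (emb b)).symm
    rw [h0]
    refine (IsUnit.mk0 _ ?_).map f
    convert det_emb b
  let M : Matrix (L ≃ₐ[K] L) (L ≃ₐ[K] L) R := Algebra.leftMulMatrix bA y
  have hM : T * M.map (algebraMap R (R ⊗[K] L)) = Matrix.diagonal (fun g => act R g y) * T := by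
    ext g i
    rw [Matrix.diagonal_mul, Matrix.mul_apply]
    have h1 : act R g (y * bA i) = act R g y * act R g (bA i) := map_mul _ _ _
    have h2 : y * bA i = ∑ j, M j i • bA j := by
      conv_lhs => rw [← bA.sum_repr (y * bA i)]
      refine Finset.sum_congr rfl fun j _ => ?_
      rw [show M j i = bA.repr (y * bA i) j from Algebra.leftMulMatrix_eq_repr_mul bA y j i]
    rw [h2, map_sum] at h1
    have h3 : ∀ j, T g j = act R g (bA j) := by
      intro j
      rw [hbA, act_tmul]
      rfl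
    rw [h3 i, ← h1]
    refine Finset.sum_congr rfl fun j _ => ?_
    rw [h3 j, Matrix.map_apply, map_smul, Algebra.smul_def, mul_comm]
  have hdet := congrArg Matrix.det hM
  rw [Matrix.det_mul, Matrix.det_mul, Matrix.det_diagonal, mul_comm] at hdet
  have h4 := hT.mul_right_cancel hdet
  rw [← h4, Algebra.norm_eq_matrix_det bA]
  exact (RingHom.map_det (algebraMap R (R ⊗[K] L)) M).symm

/-- `α` is a norm from `R ⊗[K] L` (product over the Galois group) -/
def LN (R : Type*) (L : Type*) [CommRing R] [Algebra K R] [Field L] [Algebra K L]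
    [FiniteDimensional K L] (α : K) : Prop :=
  ∃ y : R ⊗[K] L, ∏ g : L ≃ₐ[K] L, act R g y = algebraMap K (R ⊗[K] L) α

/-- the two forms of the norm condition agree -/
theorem ln_iff_norm (α : K) :
    LN R L α ↔ ∃ y : R ⊗[K] L, Algebra.norm R y = algebraMap K R α := by
  have hinj : Function.Injective (algebraMap R (R ⊗[K] L)) :=
    Algebra.TensorProduct.includeLeft_injective (S := K) (algebraMap K L).injective
  unfold LN
  refine exists_congr fun y => ?_
  rw [prod_act, IsScalarTower.algebraMap_apply K R (R ⊗[K] L)]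
  exact hinj.eq_iff

omit [IsGalois K L] in
/-- functoriality -/
theorem LN.map {R : Type*} {R' : Type*} [CommRing R] [Algebra K R] [CommRing R'] [Algebra K R']
    (f : R →ₐ[K] R') {α : K} (h : LN R L α) : LN R' L α := by
  obtain ⟨y, hy⟩ := h
  let F : R ⊗[K] L →ₐ[K] R' ⊗[K] L := Algebra.TensorProduct.map f (AlgHom.id K L)
  have hF : ∀ (g : L ≃ₐ[K] L) (z : R ⊗[K] L), F (act R g z) = act R' g (F z) := by
    intro g z
    induction z with
    | zero => simp
    | tmul r x => simp [F]
    | add a b ha hb => rw [map_add, map_add, map_add, map_add, ha, hb]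
  refine ⟨F y, ?_⟩
  calc ∏ g : L ≃ₐ[K] L, act R' g (F y) = ∏ g : L ≃ₐ[K] L, F (act R g y) :=
        Finset.prod_congr rfl fun g _ => (hF g y).symm
    _ = F (∏ g : L ≃ₐ[K] L, act R g y) := (map_prod F _ _).symm
    _ = F (algebraMap K (R ⊗[K] L) α) := by rw [hy]
    _ = _ := F.commutes α

omit [IsGalois K L] in
theorem LN.mul {R : Type*} [CommRing R] [Algebra K R] {α β : K} (h : LN R L α) (h' : LN R L β) :
    LN R L (α * β) := by
  obtain ⟨y, hy⟩ := h
  obtain ⟨z, hz⟩ := h'
  refine ⟨y * z, ?_⟩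
  rw [map_mul, ← hy, ← hz, ← Finset.prod_mul_distrib]
  exact Finset.prod_congr rfl fun g _ => map_mul _ _ _

omit [IsGalois K L] in
theorem LN.inv {R : Type*} [CommRing R] [Algebra K R] {α : K} (h : LN R L α) :
    LN R L α⁻¹ := by
  rcases eq_or_ne α 0 with rfl | hα
  · simpa using h
  obtain ⟨y, hy⟩ := h
  have hu : IsUnit y := by
    have h1 : IsUnit (∏ g : L ≃ₐ[K] L, act R g y) := by
      rw [hy]
      exact (IsUnit.mk0 α hα).map _
    have h2 := isUnit_of_dvd_unit (Finset.dvd_prod_of_mem (fun g : L ≃ₐ[K] L => act R g y)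
      (Finset.mem_univ 1)) h1
    have h3 : act R (1 : L ≃ₐ[K] L) y = y := by
      clear hy h1 h2
      induction y with
      | zero => simp
      | tmul r x => simp
      | add a b ha hb => rw [map_add, ha, hb]
    rwa [h3] at h2
  obtain ⟨u, rfl⟩ := hu
  refine ⟨(u⁻¹ : (R ⊗[K] L)ˣ), ?_⟩
  have h4 : (∏ g : L ≃ₐ[K] L, act R g (u : R ⊗[K] L)) *
      ∏ g : L ≃ₐ[K] L, act R g ((u⁻¹ : (R ⊗[K] L)ˣ) : R ⊗[K] L) = 1 := by
    rw [← Finset.prod_mul_distrib]
    refine Finset.prod_eq_one fun g _ => ?_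
    rw [← map_mul, Units.mul_inv, map_one]
  rw [hy] at h4
  have h5 : algebraMap K (R ⊗[K] L) α * algebraMap K (R ⊗[K] L) α⁻¹ = 1 := by
    rw [← map_mul, mul_inv_cancel₀ hα, map_one]
  have h6 : IsUnit (algebraMap K (R ⊗[K] L) α) := (IsUnit.mk0 α hα).map _
  exact h6.mul_left_cancel (h4.trans h5.symm)

/-- `n`-th powers of `R`, `n = [L : K]`, are norms -/
theorem ln_of_pow {R : Type*} [CommRing R] [Algebra K R] {α : K} {r : R}
    (h : algebraMap K R α = r ^ Module.finrank K L) : LN R L α := by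
  rw [ln_iff_norm]
  rcases subsingleton_or_nontrivial R with hR | hR
  · exact ⟨0, Subsingleton.elim _ _⟩
  refine ⟨algebraMap R (R ⊗[K] L) r, ?_⟩
  rw [Algebra.norm_algebraMap_of_basis
    (Algebra.TensorProduct.basis R (Module.finBasis K L)), h, Fintype.card_fin]

/-- over `K` itself the condition is that `α` is a norm from `L` -/
theorem ln_self (α : K) : LN K L α ↔ ∃ x : L, Algebra.norm K x = α := by
  rw [ln_iff_norm]
  constructor
  · rintro ⟨y, hy⟩
    refine ⟨Algebra.TensorProduct.lid K L y, ?_⟩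
    rw [Algebra.norm_eq_of_algEquiv (Algebra.TensorProduct.lid K L) y]
    simpa using hy
  · rintro ⟨x, hx⟩
    refine ⟨(Algebra.TensorProduct.lid K L).symm x, ?_⟩
    rw [Algebra.norm_eq_of_algEquiv (Algebra.TensorProduct.lid K L).symm x]
    simpa using hx

/-- a norm from `L` is a norm from every `R ⊗[K] L` -/
theorem ln_of_norm {α : K} (h : ∃ x : L, Algebra.norm K x = α) : LN R L α :=
  ((ln_self α).2 h).map (Algebra.ofId K R)

end Vale.Agent.P022.H763
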