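import Vale.Agent.P022.H763.Ln

open scoped TensorProduct

noncomputable section

namespace Vale.Agent.P022.H763

/-- a product over a finite group as a double product over a subgroup and cosets -/
lemma prod_coset {G : Type*} [Group G] [Fintype G] (H : Subgroup G) [Fintype H]
    [Fintype (G ⧸ H)] {A : Type*} [CommMonoid A] (f : G → A) :
    ∏ g, f g = ∏ h : H, ∏ q : G ⧸ H, f ((h : G) * (q.out)⁻¹) := by
  have hb : Function.Bijective (fun p : H × (G ⧸ H) => (p.1 : G) * (p.2.out)⁻¹) := by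
    constructor
    · rintro ⟨h, q⟩ ⟨h', q'⟩ he
      have he1 : (h : G) * (q.out)⁻¹ = h' * (q'.out)⁻¹ := he
      have he2 : q.out * (h : G)⁻¹ = q'.out * (h' : G)⁻¹ := by
        have := congrArg (·⁻¹) he1
        simpa [mul_inv_rev] using this
      have hq : q = q' := by
        have h1 : (QuotientGroup.mk (q.out * (h : G)⁻¹) : G ⧸ H) = q := by
          rw [QuotientGroup.mk_mul_of_mem _ (H.inv_mem h.2), QuotientGroup.out_eq']
        have h2 : (QuotientGroup.mk (q'.out * (h' : G)⁻¹) : G ⧸ H) = q' := by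
          rw [QuotientGroup.mk_mul_of_mem _ (H.inv_mem h'.2), QuotientGroup.out_eq']
        rw [← h1, ← h2, he2]
      subst hq
      have : (h : G) = h' := mul_right_cancel he1
      exact Prod.ext (Subtype.ext this) rfl
    · intro g
      have hm : g * (QuotientGroup.mk g⁻¹ : G ⧸ H).out ∈ H := by
        have h1 : (QuotientGroup.mk (QuotientGroup.mk g⁻¹ : G ⧸ H).out : G ⧸ H) =
            QuotientGroup.mk g⁻¹ := QuotientGroup.out_eq' _
        have h2 := (QuotientGroup.eq).1 h1.symm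
        simpa using h2
      exact ⟨(⟨_, hm⟩, QuotientGroup.mk g⁻¹), by simp⟩
  rw [← Fintype.prod_prod_type', ]
  exact (Fintype.prod_bijective _ hb (fun p : H × (G ⧸ H) => f ((p.1 : G) * (p.2.out)⁻¹)) f
    (fun _ => rfl)).symm

lemma act_mul {K : Type*} (R : Type*) {L : Type*} [Field K] [CommRing R] [Algebra K R] [Field L]
    [Algebra K L] (g h : L ≃ₐ[K] L) (y : R ⊗[K] L) : act R (g * h) y = act R g (act R h y) := by
  induction y with
  | zero => simp
  | tmul r x => simp
  | add a b ha hb => rw [map_add, map_add, map_add, ha, hb]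

/-- **base change of the local norm condition**: `K ⊂ Z`, `L / K` and `M / Z` Galois, `L ⊂ M`,
`M = L Z`; a norm from `R ⊗[K] L` is a norm from `R ⊗[Z] M` -/
theorem LN.base {K L Z M : Type*} [Field K] [Field L] [Field Z] [Field M] [Algebra K L]
    [Algebra K Z] [Algebra K M] [Algebra L M] [Algebra Z M] [IsScalarTower K L M]
    [IsScalarTower K Z M] [FiniteDimensional K L] [IsGalois K L] [FiniteDimensional Z M]
    (hinj : ∀ g : M ≃ₐ[Z] M, (∀ x : L, g (algebraMap L M x) = algebraMap L M x) → g = 1)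
    {R : Type*} [CommRing R] [Algebra K R] [Algebra Z R] [IsScalarTower K Z R] {α : K}
    (h : LN R L α) : LN R M (algebraMap K Z α) := by
  classical
  obtain ⟨y, hy⟩ := h
  let res : (M ≃ₐ[Z] M) →* (L ≃ₐ[K] L) :=
    (AlgEquiv.restrictNormalHom (K₁ := M) L).comp (AlgEquiv.restrictScalarsHom K)
  have hres : ∀ (g : M ≃ₐ[Z] M) (x : L), algebraMap L M (res g x) = g (algebraMap L M x) :=
    fun g x => AlgEquiv.restrictNormal_commutes (g.restrictScalars K) L x
  have hri : Function.Injective res := by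
    rw [injective_iff_map_eq_one]
    intro g hg
    apply hinj
    intro x
    rw [← hres, hg]
    rfl
  let Φ : R ⊗[K] L →ₐ[R] R ⊗[Z] M := Algebra.TensorProduct.lift (Algebra.ofId R (R ⊗[Z] M))
    (((Algebra.TensorProduct.includeRight : M →ₐ[Z] R ⊗[Z] M).restrictScalars K).comp
      (IsScalarTower.toAlgHom K L M)) (fun _ _ => Commute.all _ _)
  have hΦ1 : ∀ (r : R) (x : L), Φ (r ⊗ₜ x) = r ⊗ₜ (algebraMap L M x) := by
    intro r x
    simp [Φ, Algebra.ofId_apply]
  have hΦ : ∀ (g : M ≃ₐ[Z] M) (z : R ⊗[K] L), Φ (act R (res g) z) = act R g (Φ z) := by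
    intro g z
    induction z with
    | zero => simp
    | tmul r x => rw [act_tmul, hΦ1, hΦ1, act_tmul, hres]
    | add a b ha hb => rw [map_add, map_add, map_add, map_add, ha, hb]
  refine ⟨Φ (∏ q : (L ≃ₐ[K] L) ⧸ res.range, act R (q.out)⁻¹ y), ?_⟩
  have h1 : ∏ g : M ≃ₐ[Z] M, act R g (Φ (∏ q : (L ≃ₐ[K] L) ⧸ res.range, act R (q.out)⁻¹ y)) =
      Φ (∏ g : L ≃ₐ[K] L, act R g y) := by
    have h2 : ∀ g : M ≃ₐ[Z] M,
        act R g (Φ (∏ q : (L ≃ₐ[K] L) ⧸ res.range, act R (q.out)⁻¹ y)) =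
        Φ (∏ q : (L ≃ₐ[K] L) ⧸ res.range, act R (res g * (q.out)⁻¹) y) := by
      intro g
      rw [← hΦ, map_prod]
      congr 1
      exact Finset.prod_congr rfl fun q _ => (act_mul R _ _ _).symm
    have h3 : Φ (∏ g : L ≃ₐ[K] L, act R g y) = ∏ h : res.range,
        Φ (∏ q : (L ≃ₐ[K] L) ⧸ res.range, act R ((h : L ≃ₐ[K] L) * (q.out)⁻¹) y) := by
      rw [prod_coset res.range (fun g => act R g y)]
      exact map_prod Φ _ _
    rw [h3, Finset.prod_congr rfl fun g _ => h2 g]
    exact Fintype.prod_bijective (fun g : M ≃ₐ[Z] M => (⟨res g, ⟨g, rfl⟩⟩ : res.range))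
      ⟨fun a b hab => hri (congrArg Subtype.val hab), by rintro ⟨_, g, rfl⟩; exact ⟨g, rfl⟩⟩ _ _
      (fun _ => rfl)
  rw [h1, hy, IsScalarTower.algebraMap_apply K R (R ⊗[K] L), Φ.commutes,
    IsScalarTower.algebraMap_apply Z R (R ⊗[Z] M), ← IsScalarTower.algebraMap_apply K Z R]

end Vale.Agent.P022.H763
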